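import Crest.Agent.R115.Torus

/-! The level gadget and its combinatorial obstruction. -/

set_option autoImplicit false
set_option linter.style.haveILetI false

namespace Crest.Agent.R115

open Matrix MatrixGroups

/-- torsion points of the torus -/
abbrev XX : Type := {y : TT // ∃ n : ℕ, 0 < n ∧ n • y = 0}

instance : Countable XX := by
  have h : {y : TT | ∃ n : ℕ, 0 < n ∧ n • y = 0}.Countable := by
    have : {y : TT | ∃ n : ℕ, 0 < n ∧ n • y = 0} = ⋃ n : ℕ, {y : TT | (n + 1) • y = 0} := by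
      ext y
      simp only [Set.mem_ofPred_eq, Set.mem_iUnion]
      constructor
      · rintro ⟨n, hn, h⟩
        exact ⟨n - 1, by rwa [Nat.sub_add_cancel hn]⟩
      · rintro ⟨n, h⟩
        exact ⟨n + 1, n.succ_pos, h⟩
    rw [this]
    exact Set.countable_iUnion fun n => (finite_tors _ n.succ_pos).countable
  exact h.to_subtype

lemma exists_common (F : Finset XX) : ∃ k : ℕ, 0 < k ∧ ∀ y ∈ F, k • y.1 = 0 := by
  classical
  induction F using Finset.induction_on with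
  | empty => exact ⟨1, one_pos, by simp⟩
  | insert a s _ ih =>
    obtain ⟨k, hk, h⟩ := ih
    obtain ⟨n, hn, h'⟩ := a.2
    refine ⟨k * n, Nat.mul_pos hk hn, fun y hy => ?_⟩
    rcases Finset.mem_insert.1 hy with rfl | hy
    · rw [mul_smul, h', smul_zero]
    · rw [mul_comm, mul_smul, h y hy, smul_zero]

instance : Infinite XX := by
  refine ⟨fun hfin => ?_⟩
  haveI := Fintype.ofFinite XX
  obtain ⟨k, hk, h⟩ := exists_common Finset.univ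
  obtain ⟨x, hx, hx'⟩ := exists_new k hk
  exact hx' (h ⟨x, k + 1, k.succ_pos, hx⟩ (Finset.mem_univ _))

/-- points of a level -/
abbrev YY (m : ℕ) : Type := SL(2, ZMod m) × XX

/-- `v = σ u` -/
def Mv {m : ℕ} (σ : SL(2, ℤ)) (u v : YY m) : Prop := v.1 = red m σ * u.1 ∧ v.2.1 = act σ.1 u.2.1

lemma Mv.symm {m : ℕ} {σ : SL(2, ℤ)} {u v : YY m} (h : Mv σ u v) : Mv σ⁻¹ v u := by
  refine ⟨?_, ?_⟩
  · rw [h.1, map_inv, inv_mul_cancel_left]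
  · rw [h.2, act_inv_act]

/-- edges -/
def EE (m : ℕ) (ϑ R : ℝ) (u v : YY m) (l : ℝ) : Prop :=
  (l = 1 ∧ ∃ σ : SL(2, ℤ), nrm σ.1 ≤ 4 ∧ Mv σ u v) ∨ (l = R ∧ v.1 = u.1 ∧ ‖u.2.1 - v.2.1‖ ≤ ϑ)

/-- the weight -/
noncomputable def WW (θ : ℝ) (γ : Mat) (δ : TT) : ℝ := θ * (nrm γ + 1) + 10 * ‖δ‖

lemma WW_pos {θ : ℝ} (hθ : 0 < θ) (γ : Mat) (δ : TT) : 0 < WW θ γ δ := by
  have := nrm_nonneg γ
  unfold WW; positivity

/-- pull-back of `v` to the fibre of `u` -/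
def Pb {m : ℕ} (u v : YY m) : TT := act (gam (u.1 * v.1⁻¹)) v.2.1

/-- cutoff -/
noncomputable def chi {m : ℕ} (θ : ℝ) (h : ℝ → ℝ) (u v : YY m) : ℝ :=
  h (WW θ (gam (u.1 * v.1⁻¹)) (u.2.1 - Pb u v))

/-- standing hypotheses on the parameters -/
structure Par (m : ℕ) (θ β : ℝ) (h : ℝ → ℝ) : Prop where
  θpos : 0 < θ
  βpos : 0 < β
  h01 : ∀ W, 0 ≤ h W ∧ h W ≤ 1
  hz : ∀ W, 1 ≤ W → h W = 0
  ho : ∀ W, 0 < W → W ≤ 4 * θ → h W = 1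
  hl : ∀ W W', 0 < W → 0 < W' → W ≤ 4 * W' → W' ≤ 4 * W → |h W - h W'| ≤ β
  hm : 8 ≤ θ * m
  hm4 : (4 : ℝ) < m

section

variable {m : ℕ} [NeZero m] {θ β : ℝ} {h : ℝ → ℝ} (H : Par m θ β h)
include H

omit [NeZero m] in
lemma Par.small {u v : YY m} (hc : chi θ h u v ≠ 0) :
    8 * nrm (gam (u.1 * v.1⁻¹)) < m ∧ ‖u.2.1 - Pb u v‖ < 1 / 10 := by
  have h1 : WW θ (gam (u.1 * v.1⁻¹)) (u.2.1 - Pb u v) < 1 := by
    by_contra hn
    exact hc (H.hz _ (not_lt.1 hn))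
  unfold WW at h1
  have h2 := nrm_nonneg (gam (u.1 * v.1⁻¹))
  have h3 := norm_nonneg (u.2.1 - Pb u v)
  have h4 := H.θpos
  have h5 := H.hm
  constructor
  · by_contra hn
    have := mul_le_mul_of_nonneg_left (not_lt.1 hn) h4.le
    nlinarith
  · nlinarith

lemma Par.move_v1 {σ : SL(2, ℤ)} (hσ : nrm σ.1 ≤ 4) {u v v' : YY m} (hv : Mv σ v v')
    (hc : chi θ h u v ≠ 0) : Pb u v' = Pb u v ∧ |chi θ h u v - chi θ h u v'| ≤ β := by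
  have hs := (H.small hc).1
  have hσ' : nrm (σ⁻¹ : SL(2, ℤ)).1 ≤ 4 := by rwa [nrm_inv]
  have e1 : gam (u.1 * v'.1⁻¹) = gam (u.1 * v.1⁻¹) * (σ⁻¹ : SL(2, ℤ)).1 := by
    rw [← gam_right _ _ hσ' hs, hv.1, _root_.mul_inv_rev, map_inv, mul_assoc]
  have e2 : Pb u v' = Pb u v := by
    unfold Pb
    rw [e1, hv.2, act_mul, act_inv_act]
  refine ⟨e2, ?_⟩
  unfold chi
  rw [e2, e1]
  have n1 := nrm_mul (gam (u.1 * v.1⁻¹)) (σ⁻¹ : SL(2, ℤ)).1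
  have n2 := nrm_mul (gam (u.1 * v.1⁻¹) * (σ⁻¹ : SL(2, ℤ)).1) σ.1
  rw [mul_assoc, ← Matrix.SpecialLinearGroup.coe_mul, inv_mul_cancel,
    Matrix.SpecialLinearGroup.coe_one, mul_one] at n2
  have p1 := nrm_nonneg (gam (u.1 * v.1⁻¹))
  have p2 := nrm_nonneg (gam (u.1 * v.1⁻¹) * (σ⁻¹ : SL(2, ℤ)).1)
  have p3 := norm_nonneg (u.2.1 - Pb u v)
  have p4 := H.θpos
  have q1 : nrm (gam (u.1 * v.1⁻¹) * (σ⁻¹ : SL(2, ℤ)).1) ≤ 4 * nrm (gam (u.1 * v.1⁻¹)) := by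
    nlinarith
  have q2 : nrm (gam (u.1 * v.1⁻¹)) ≤ 4 * nrm (gam (u.1 * v.1⁻¹) * (σ⁻¹ : SL(2, ℤ)).1) := by
    nlinarith
  apply H.hl _ _ (WW_pos p4 _ _) (WW_pos p4 _ _) <;> unfold WW <;> nlinarith

lemma Par.move_v {σ : SL(2, ℤ)} (hσ : nrm σ.1 ≤ 4) (u : YY m) {v v' : YY m} (hv : Mv σ v v') :
    (chi θ h u v = 0 ∧ chi θ h u v' = 0) ∨
      (Pb u v' = Pb u v ∧ |chi θ h u v - chi θ h u v'| ≤ β) := by
  by_cases h1 : chi θ h u v = 0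
  · by_cases h2 : chi θ h u v' = 0
    · exact Or.inl ⟨h1, h2⟩
    · have := H.move_v1 (by rwa [nrm_inv]) hv.symm h2
      exact Or.inr ⟨this.1.symm, by rw [abs_sub_comm]; exact this.2⟩
  · exact Or.inr (H.move_v1 hσ hv h1)

lemma Par.move_u1 {σ : SL(2, ℤ)} (hσ : nrm σ.1 ≤ 4) {u u' v : YY m} (hu : Mv σ u u')
    (hc : chi θ h u v ≠ 0) :
    Pb u' v = act σ.1 (Pb u v) ∧ |chi θ h u v - chi θ h u' v| ≤ β := by
  have hs := (H.small hc).1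
  have hσ' : nrm (σ⁻¹ : SL(2, ℤ)).1 ≤ 4 := by rwa [nrm_inv]
  have e1 : gam (u'.1 * v.1⁻¹) = σ.1 * gam (u.1 * v.1⁻¹) := by
    rw [← gam_left _ _ hσ hs, hu.1, mul_assoc]
  have e2 : Pb u' v = act σ.1 (Pb u v) := by
    unfold Pb
    rw [e1, act_mul]
  refine ⟨e2, ?_⟩
  unfold chi
  rw [e2, e1, hu.2, ← act_sub]
  have n1 := nrm_mul σ.1 (gam (u.1 * v.1⁻¹))
  have n2 := nrm_mul (σ⁻¹ : SL(2, ℤ)).1 (σ.1 * gam (u.1 * v.1⁻¹))
  rw [← mul_assoc, ← Matrix.SpecialLinearGroup.coe_mul, inv_mul_cancel,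
    Matrix.SpecialLinearGroup.coe_one, one_mul] at n2
  have n3 := norm_act σ.1 (u.2.1 - Pb u v)
  have n4 := norm_act (σ⁻¹ : SL(2, ℤ)).1 (act σ.1 (u.2.1 - Pb u v))
  rw [act_inv_act] at n4
  have p1 := nrm_nonneg (gam (u.1 * v.1⁻¹))
  have p2 := nrm_nonneg (σ.1 * gam (u.1 * v.1⁻¹))
  have p3 := norm_nonneg (u.2.1 - Pb u v)
  have p5 := norm_nonneg (act σ.1 (u.2.1 - Pb u v))
  have p4 := H.θpos
  have q1 : nrm (σ.1 * gam (u.1 * v.1⁻¹)) ≤ 4 * nrm (gam (u.1 * v.1⁻¹)) := by nlinarith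
  have q2 : nrm (gam (u.1 * v.1⁻¹)) ≤ 4 * nrm (σ.1 * gam (u.1 * v.1⁻¹)) := by nlinarith
  have q3 : ‖act σ.1 (u.2.1 - Pb u v)‖ ≤ 4 * ‖u.2.1 - Pb u v‖ := by nlinarith
  have q4 : ‖u.2.1 - Pb u v‖ ≤ 4 * ‖act σ.1 (u.2.1 - Pb u v)‖ := by nlinarith
  apply H.hl _ _ (WW_pos p4 _ _) (WW_pos p4 _ _) <;> unfold WW <;> nlinarith

lemma Par.move_u {σ : SL(2, ℤ)} (hσ : nrm σ.1 ≤ 4) {u u' : YY m} (hu : Mv σ u u') (v : YY m) :
    (chi θ h u v = 0 ∧ chi θ h u' v = 0) ∨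
      (Pb u' v = act σ.1 (Pb u v) ∧ |chi θ h u v - chi θ h u' v| ≤ β) := by
  by_cases h1 : chi θ h u v = 0
  · by_cases h2 : chi θ h u' v = 0
    · exact Or.inl ⟨h1, h2⟩
    · have := H.move_u1 (by rwa [nrm_inv]) hu.symm h2
      exact Or.inr ⟨by rw [this.1, act_act_inv], by rw [abs_sub_comm]; exact this.2⟩
  · exact Or.inr (H.move_u1 hσ hu h1)

omit [NeZero m] in
lemma Par.long1 (γ : Mat) (x y y' : TT) (hy : ‖y - y'‖ ≤ θ / 10) :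
    WW θ γ (x - act γ y) ≤ 4 * WW θ γ (x - act γ y') := by
  have e : x - act γ y = (x - act γ y') - act γ (y - y') := by rw [act_sub]; abel
  have h1 := norm_sub_le (x - act γ y') (act γ (y - y'))
  rw [← e] at h1
  have h2 := norm_act γ (y - y')
  have h3 := nrm_nonneg γ
  have h4 := mul_le_mul_of_nonneg_left hy h3
  have h5 := norm_nonneg (x - act γ y')
  have h6 := H.θpos
  unfold WW
  nlinarith

omit [NeZero m] in
lemma Par.long (u : YY m) {v v' : YY m} (h1 : v'.1 = v.1) (h2 : ‖v.2.1 - v'.2.1‖ ≤ θ / 10) :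
    |chi θ h u v - chi θ h u v'| ≤ β := by
  unfold chi Pb
  rw [h1]
  exact H.hl _ _ (WW_pos H.θpos _ _) (WW_pos H.θpos _ _) (H.long1 _ _ _ _ h2)
    (H.long1 _ _ _ _ (by rwa [norm_sub_rev]))

lemma Par.anchor {u a : YY m} (h1 : a.1 = u.1) (h2 : ‖u.2.1 - a.2.1‖ ≤ θ / 10) :
    chi θ h u a = 1 := by
  unfold chi Pb
  rw [h1, mul_inv_cancel, gam_one H.hm4, act_one]
  refine H.ho _ (WW_pos H.θpos _ _) ?_
  unfold WW
  rw [nrm_one]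
  linarith

end

/-- generators -/
def gU : SL(2, ℤ) := ⟨!![1, 2; 0, 1], by simp [Matrix.det_fin_two]⟩
def gV : SL(2, ℤ) := ⟨!![1, 0; 2, 1], by simp [Matrix.det_fin_two]⟩

lemma nrm_gU : nrm gU.1 ≤ 4 := by simp [nrm, gU]; norm_num
lemma nrm_gV : nrm gV.1 ≤ 4 := by simp [nrm, gV]; norm_num

lemma act_gU (y : TT) : act gU.1 y = (y.1 + 2 • y.2, y.2) := by
  simp [act, gU, two_smul]
lemma act_gV (y : TT) : act gV.1 y = (y.1, y.2 + 2 • y.1) := by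
  simp [act, gV, two_smul, add_comm]
lemma act_gU' (y : TT) : act (gU⁻¹ : SL(2, ℤ)).1 y = (y.1 - 2 • y.2, y.2) := by
  have := act_inv_act gU (y.1 - 2 • y.2, y.2)
  rw [act_gU] at this
  simpa using this
lemma act_gV' (y : TT) : act (gV⁻¹ : SL(2, ℤ)).1 y = (y.1, y.2 - 2 • y.1) := by
  have := act_inv_act gV (y.1, y.2 - 2 • y.1)
  rw [act_gV] at this
  simpa using this

lemma pp1 (a b : UnitAddCircle) (hb : ‖b‖ < 1 / 10) (hab : ‖a‖ ≤ ‖b‖) :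
    ‖b‖ ≤ ‖a + 2 • b‖ ∧ ‖b‖ ≤ ‖a - 2 • b‖ := by
  have h := norm_nsmul_small 2 b (by push_cast; linarith)
  push_cast at h
  have h1 := norm_sub_le (a + 2 • b) a
  have h2 := norm_sub_le a (a - 2 • b)
  rw [add_sub_cancel_left] at h1
  rw [sub_sub_cancel] at h2
  constructor <;> linarith

lemma pp2 (a a' b : UnitAddCircle) (hb : ‖b‖ < 1 / 10) (hab : ‖a‖ ≤ ‖b‖) (hab' : ‖a'‖ ≤ ‖b‖)
    (e : a + 2 • b = a' - 2 • b) : a = 0 ∧ b = 0 := by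
  have h := norm_nsmul_small 4 b (by push_cast; linarith)
  push_cast at h
  have e2 : a' - a = 4 • b := by
    have : a' = a + 2 • b + 2 • b := by rw [e]; abel
    rw [this]; abel
  have h1 := norm_sub_le a' a
  rw [e2] at h1
  have h2 := norm_nonneg b
  have h3 := norm_nonneg a
  exact ⟨norm_eq_zero.1 (by linarith), norm_eq_zero.1 (by linarith)⟩

end Crest.Agent.R115
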