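import Mathlib
import Crest.Prelude.Def_LipschitzFree

/-! General tools on Lipschitz-free spaces. -/

set_option autoImplicit false

namespace Crest.Agent.R115

open Crest.AnalysisR Crest.AnalysisR.PointedMetric UniformSpace

variable (P : PointedMetric)

/-- distance in a pointed metric space -/
noncomputable def dd (v w : P.M) : ℝ := letI := P.metric; dist v w

/-- a finitely supported function as a molecule -/
def mol (a : P.M →₀ ℝ) : P.Mol := a

/-- Dirac molecule -/
noncomputable def dl (v : P.M) : P.Mol := mol P (Finsupp.single v 1)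

lemma pairing_dl (v : P.M) (f : P.M → ℝ) : P.pairing (dl P v) f = f v := by
  unfold pairing dl mol coeffs
  rw [Finsupp.sum_single_index] <;> simp

lemma pairing_sub (a b : P.Mol) (f : P.M → ℝ) :
    P.pairing (a - b) f = P.pairing a f - P.pairing b f := by
  rw [sub_eq_add_neg, pairing_add, pairing_neg]; ring

lemma norm_def (a : P.Mol) : ‖a‖ = P.freeNorm a := rfl

lemma norm_le_of (a : P.Mol) (C : ℝ) (h : ∀ f : P.Lip1, |P.pairing a f.1| ≤ C) : ‖a‖ ≤ C := by
  rw [norm_def]; exact ciSup_le h

lemma lip1_dd (f : P.Lip1) (v w : P.M) : |f.1 v - f.1 w| ≤ dd P v w := by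
  letI := P.metric
  have h := f.2.1.dist_le_mul v w
  rw [Real.dist_eq, NNReal.coe_one, one_mul] at h
  exact h

lemma dd_nonneg (v w : P.M) : 0 ≤ dd P v w := by
  letI := P.metric
  exact dist_nonneg

lemma pairing_fun_mul (a : P.Mol) (c : ℝ) (f : P.M → ℝ) :
    P.pairing a (fun v => c * f v) = c * P.pairing a f := by
  unfold pairing
  rw [Finsupp.mul_sum]
  exact Finsupp.sum_congr fun _ _ => by ring

lemma abs_pairing_le_one (a : P.Mol) (g : P.M → ℝ) (h0 : g P.base = 0)
    (hg : ∀ v w, |g v - g w| ≤ dd P v w) : |P.pairing a g| ≤ ‖a‖ := by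
  letI := P.metric
  have hl : LipschitzWith 1 g := by
    refine LipschitzWith.of_dist_le_mul fun v w => ?_
    rw [Real.dist_eq, NNReal.coe_one, one_mul]; exact hg v w
  exact le_ciSup (P.freeNorm_bddAbove a) (⟨g, hl, h0⟩ : P.Lip1)

lemma abs_pairing_le_mul (a : P.Mol) (g : P.M → ℝ) (L : ℝ) (hL : 0 < L) (h0 : g P.base = 0)
    (hg : ∀ v w, |g v - g w| ≤ L * dd P v w) : |P.pairing a g| ≤ L * ‖a‖ := by
  have h := abs_pairing_le_one P a (fun v => L⁻¹ * g v) (by simp [h0]) (fun v w => by
    rw [← mul_sub, abs_mul, abs_of_pos (inv_pos.2 hL), inv_mul_le_iff₀ hL]; exact hg v w)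
  rw [pairing_fun_mul, abs_mul, abs_of_pos (inv_pos.2 hL), inv_mul_le_iff₀ hL] at h
  exact h

lemma norm_dl_sub (v w : P.M) : ‖dl P v - dl P w‖ ≤ dd P v w := by
  refine norm_le_of P _ _ fun f => ?_
  rw [pairing_sub, pairing_dl, pairing_dl]; exact lip1_dd P f v w

lemma norm_dl (v : P.M) : ‖dl P v‖ ≤ dd P v P.base := by
  refine norm_le_of P _ _ fun f => ?_
  rw [pairing_dl]
  have := lip1_dd P f v P.base
  rwa [f.2.2, sub_zero] at this

/-- push-forward of molecules, as a linear map -/
noncomputable def pushL (r : P.M → P.M) : P.Mol →ₗ[ℝ] P.Mol := Finsupp.lmapDomain ℝ ℝ r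

lemma coeffs_pushL (r : P.M → P.M) (a : P.Mol) :
    P.coeffs (pushL P r a) = Finsupp.mapDomain r (P.coeffs a) := rfl

lemma pairing_pushL (r : P.M → P.M) (a : P.Mol) (f : P.M → ℝ) :
    P.pairing (pushL P r a) f = P.pairing a (fun v => f (r v)) := by
  unfold pairing
  rw [coeffs_pushL, Finsupp.sum_mapDomain_index] <;> intros <;> ring

lemma norm_pushL (r : P.M → P.M) (h0 : r P.base = P.base) (L : ℝ) (hL : 0 < L)
    (hr : ∀ v w, dd P (r v) (r w) ≤ L * dd P v w) (a : P.Mol) : ‖pushL P r a‖ ≤ L * ‖a‖ := by
  refine norm_le_of P _ _ fun f => ?_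
  rw [pairing_pushL]
  exact abs_pairing_le_mul P a _ L hL (by simp only [h0]; exact f.2.2)
    (fun v w => (lip1_dd P f _ _).trans (hr v w))

lemma pushL_congr (r r' : P.M → P.M) (a : P.Mol) (h : ∀ v ∈ (P.coeffs a).support, r v = r' v) :
    pushL P r a = pushL P r' a :=
  Finsupp.mapDomain_congr h

lemma pushL_id (a : P.Mol) : pushL P id a = a := Finsupp.mapDomain_id

/-- A Lipschitz self-map fixing the base point induces an operator on the free space. -/
lemma exists_push (r : P.M → P.M) (h0 : r P.base = P.base) (L : ℝ) (hL : 0 < L)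
    (hr : ∀ v w, dd P (r v) (r w) ≤ L * dd P v w) :
    ∃ T : P.FreeSpace →L[ℝ] P.FreeSpace, (∀ x, ‖T x‖ ≤ L * ‖x‖) ∧
      (∀ a : P.Mol, T (a : P.FreeSpace) = ((pushL P r a : P.Mol) : P.FreeSpace)) ∧
      ((Set.range r).Finite → FiniteDimensional ℝ (LinearMap.range T.toLinearMap)) := by
  let T0 : P.Mol →L[ℝ] P.Mol := (pushL P r).mkContinuous L (norm_pushL P r h0 L hL hr)
  have hT : ∀ a : P.Mol, T0.completion (a : P.FreeSpace) = ((pushL P r a : P.Mol) : P.FreeSpace) :=
    fun a => by rw [ContinuousLinearMap.completion_apply_coe]; rfl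
  refine ⟨T0.completion, fun x => ?_, hT, fun hfin => ?_⟩
  · induction x using Completion.induction_on with
    | hp => exact isClosed_le (by fun_prop) (by fun_prop)
    | ih a => rw [hT, Completion.norm_coe, Completion.norm_coe]; exact norm_pushL P r h0 L hL hr a
  · let W : Submodule ℝ P.FreeSpace :=
      Submodule.span ℝ ((fun v => ((dl P v : P.Mol) : P.FreeSpace)) '' Set.range r)
    haveI : FiniteDimensional ℝ W := FiniteDimensional.span_of_finite ℝ (hfin.image _)
    have hW : IsClosed (W : Set P.FreeSpace) := W.closed_of_finiteDimensional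
    have hle : LinearMap.range T0.completion.toLinearMap ≤ W := by
      rintro _ ⟨x, rfl⟩
      change T0.completion x ∈ W
      induction x using Completion.induction_on with
      | hp => exact hW.preimage T0.completion.continuous
      | ih a =>
        rw [hT]
        have key : ∀ b : P.M →₀ ℝ, ((pushL P r (mol P b) : P.Mol) : P.FreeSpace) ∈ W := by
          intro b
          induction b using Finsupp.induction_linear with
          | zero =>
            have : pushL P r (mol P 0) = 0 := map_zero _
            rw [this, Completion.coe_zero]; exact W.zero_mem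
          | add f g hf hg =>
            have : pushL P r (mol P (f + g)) = pushL P r (mol P f) + pushL P r (mol P g) :=
              map_add _ _ _
            rw [this, Completion.coe_add]; exact W.add_mem hf hg
          | single v c =>
            have : pushL P r (mol P (Finsupp.single v c)) = c • dl P (r v) := by
              change Finsupp.mapDomain r (Finsupp.single v c) = c • Finsupp.single (r v) (1 : ℝ)
              rw [Finsupp.mapDomain_single, Finsupp.smul_single, smul_eq_mul, mul_one]
            rw [this, Completion.coe_smul]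
            exact W.smul_mem _ (Submodule.subset_span ⟨r v, ⟨v, rfl⟩, rfl⟩)
        exact key a
    exact Submodule.finiteDimensional_of_le hle

/-- A totally bounded set is approximated by molecules supported in one finite set. -/
lemma exists_finset_approx (K : Set P.FreeSpace) (hK : TotallyBounded K) (ε : ℝ) (hε : 0 < ε) :
    ∃ F : Finset P.M, ∀ x ∈ K, ∃ a : P.Mol, (P.coeffs a).support ⊆ F ∧
      ‖x - (a : P.FreeSpace)‖ ≤ ε := by
  classical
  obtain ⟨t, htf, hcov⟩ := Metric.totallyBounded_iff.1 hK (ε / 2) (by positivity)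
  have hd : ∀ y : P.FreeSpace, ∃ a : P.Mol, dist y (a : P.FreeSpace) < ε / 2 := fun y =>
    Metric.denseRange_iff.1 (Completion.denseRange_coe (α := P.Mol)) y (ε / 2) (by positivity)
  choose g hg using hd
  refine ⟨htf.toFinset.biUnion fun y => (P.coeffs (g y)).support, fun x hx => ?_⟩
  obtain ⟨y, hy, hxy⟩ := Set.mem_iUnion₂.1 (hcov hx)
  refine ⟨g y, Finset.subset_biUnion_of_mem (fun y => (P.coeffs (g y)).support)
    (htf.mem_toFinset.2 hy), ?_⟩
  rw [← dist_eq_norm]
  have := dist_triangle x y (g y : P.FreeSpace)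
  have h2 := hg y
  rw [Metric.mem_ball] at hxy
  linarith

end Crest.Agent.R115
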