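import Crest.Agent.R115.Free

/-! A pointed metric space glued from weighted graphs ("levels"). -/

set_option autoImplicit false
set_option linter.style.haveILetI false

namespace Crest.Agent.R115

open Crest.AnalysisR Crest.AnalysisR.PointedMetric UniformSpace

/-- level data -/
structure Gad where
  Y : ℕ → Type
  cnt : ∀ j, Countable (Y j)
  inf : ∀ j, Infinite (Y j)
  E : ∀ j, Y j → Y j → ℝ → Prop
  hE : ∀ j u v l, E j u v l → 1 ≤ l
  Lam : ℕ → ℝ
  hLam : ∀ j : ℕ, (j : ℝ) + 1 ≤ Lam j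

namespace Gad

variable (G : Gad)

/-- underlying set -/
abbrev M : Type := Option (Σ j, G.Y j)

/-- length of the edge to the base point -/
def rho : G.M → ℝ
  | none => 0
  | some p => G.Lam p.1

/-- level of a point -/
def lev : G.M → ℕ
  | none => 0
  | some p => p.1

lemma one_le_Lam (j : ℕ) : 1 ≤ G.Lam j := by
  have := G.hLam j
  have h2 : (0 : ℝ) ≤ j := Nat.cast_nonneg j
  linarith

lemma rho_nonneg (v : G.M) : 0 ≤ G.rho v := by
  cases v with
  | none => exact le_rfl
  | some p => exact zero_le_one.trans (G.one_le_Lam _)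

/-- admissible functions -/
def Adm (L : ℝ) (f : G.M → ℝ) : Prop :=
  (∀ v, |f v - f none| ≤ L * G.rho v) ∧
    ∀ j u v l, G.E j u v l → |f (some ⟨j, u⟩) - f (some ⟨j, v⟩)| ≤ L * l

instance : Nonempty {f : G.M → ℝ // G.Adm 1 f} :=
  ⟨⟨fun _ => 0, fun v => by simpa using G.rho_nonneg v,
    fun j u v l h => by simpa using zero_le_one.trans (G.hE j u v l h)⟩⟩

/-- the distance -/
noncomputable def d (v w : G.M) : ℝ := ⨆ f : {f : G.M → ℝ // G.Adm 1 f}, |f.1 v - f.1 w|

lemma adm_le {f : G.M → ℝ} (hf : G.Adm 1 f) (v w : G.M) : |f v - f w| ≤ G.rho v + G.rho w := by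
  have h1 := hf.1 v
  have h2 := hf.1 w
  rw [one_mul] at h1 h2
  rw [abs_le] at *
  constructor <;> linarith [h1.1, h1.2, h2.1, h2.2]

lemma le_d {f : G.M → ℝ} (hf : G.Adm 1 f) (v w : G.M) : |f v - f w| ≤ G.d v w :=
  le_ciSup (f := fun f : {f : G.M → ℝ // G.Adm 1 f} => |f.1 v - f.1 w|)
    ⟨G.rho v + G.rho w, by rintro _ ⟨g, rfl⟩; exact G.adm_le g.2 v w⟩ ⟨f, hf⟩

lemma d_le (v w : G.M) (C : ℝ) (h : ∀ f, G.Adm 1 f → |f v - f w| ≤ C) : G.d v w ≤ C :=
  ciSup_le fun f => h f.1 f.2

lemma le_mul_d {L : ℝ} (hL : 0 < L) {f : G.M → ℝ} (hf : G.Adm L f) (v w : G.M) :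
    |f v - f w| ≤ L * G.d v w := by
  have h : G.Adm 1 (fun v => L⁻¹ * f v) := by
    refine ⟨fun v => ?_, fun j u v l h => ?_⟩
    · rw [← mul_sub, abs_mul, abs_of_pos (inv_pos.2 hL), inv_mul_le_iff₀ hL, one_mul]
      exact hf.1 v
    · rw [← mul_sub, abs_mul, abs_of_pos (inv_pos.2 hL), inv_mul_le_iff₀ hL, one_mul]
      exact hf.2 j u v l h
  have h2 := G.le_d h v w
  rwa [← mul_sub, abs_mul, abs_of_pos (inv_pos.2 hL), inv_mul_le_iff₀ hL] at h2

lemma d_le_rho (v w : G.M) : G.d v w ≤ G.rho v + G.rho w := G.d_le v w _ fun _ hf => G.adm_le hf v w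

lemma d_edge {j : ℕ} {u v : G.Y j} {l : ℝ} (h : G.E j u v l) :
    G.d (some ⟨j, u⟩) (some ⟨j, v⟩) ≤ l :=
  G.d_le _ _ _ fun f hf => by simpa using hf.2 j u v l h

lemma d_self (v : G.M) : G.d v v = 0 := by simp [d]

lemma d_comm (v w : G.M) : G.d v w = G.d w v := by
  unfold d; congr 1; funext f; exact abs_sub_comm _ _

lemma d_triangle (u v w : G.M) : G.d u w ≤ G.d u v + G.d v w :=
  G.d_le _ _ _ fun _ hf => (abs_sub_le _ _ _).trans (add_le_add (G.le_d hf _ _) (G.le_d hf _ _))

open Classical in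
lemma adm_ind (p : G.M) : G.Adm 1 (fun v => if v = p then 1 else 0) := by
  refine ⟨fun v => ?_, fun j u v l h => ?_⟩
  · cases v with
    | none => simp [rho]
    | some q =>
      have := G.one_le_Lam q.1
      simp only [rho, one_mul]
      split_ifs <;> simp <;> linarith
  · have := G.hE j u v l h
    simp only [one_mul]
    split_ifs <;> simp <;> linarith

lemma one_le_d {v w : G.M} (h : v ≠ w) : 1 ≤ G.d v w := by
  have := G.le_d (G.adm_ind v) v w
  simpa [h.symm] using this

lemma rho_le_d (v : G.M) : G.rho v ≤ G.d v none := by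
  have h : G.Adm 1 G.rho := by
    refine ⟨fun v => ?_, fun j u v l h => ?_⟩
    · have h0 : G.rho none = 0 := rfl
      rw [h0, sub_zero, one_mul, abs_of_nonneg (G.rho_nonneg v)]
    · simpa [rho] using zero_le_one.trans (G.hE j u v l h)
  have := G.le_d h v none
  simp only [rho, sub_zero] at this
  exact (le_abs_self _).trans this

/-- the metric -/
@[reducible] noncomputable def metric : MetricSpace G.M where
  dist := G.d
  dist_self := G.d_self
  dist_comm := G.d_comm
  dist_triangle := G.d_triangle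
  eq_of_dist_eq_zero := fun {v w} h => by
    by_contra hne
    have := G.one_le_d hne
    change G.d v w = 0 at h
    linarith

/-- the pointed metric space -/
@[reducible] noncomputable def P : PointedMetric := ⟨G.M, G.metric, none⟩

lemma dd_eq (v w : G.M) : dd G.P v w = G.d v w := rfl

theorem basic : G.P.IsCountableSeparatedUnboundedNonproper := by
  letI := G.metric
  haveI := G.cnt
  haveI := G.inf
  refine ⟨inferInstanceAs (Countable G.M), fun v w h => G.one_le_d h, fun hb => ?_, fun hp => ?_⟩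
  · obtain ⟨C, hC⟩ := Metric.isBounded_iff.1 hb
    obtain ⟨j, hj⟩ := exists_nat_ge C
    obtain ⟨u⟩ : Nonempty (G.Y j) := inferInstance
    have h1 : G.d (some ⟨j, u⟩) none ≤ C := hC (Set.mem_univ _) (Set.mem_univ _)
    have h2 := G.rho_le_d (some ⟨j, u⟩)
    have h3 := G.hLam j
    simp only [rho] at h2
    linarith
  · haveI : ProperSpace G.M := hp
    have hc : IsCompact (Metric.closedBall (none : G.M) (G.Lam 0)) := isCompact_closedBall _ _
    obtain ⟨t, htf, hcov⟩ := Metric.totallyBounded_iff.1 hc.totallyBounded 1 one_pos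
    have hsub : Set.range (fun u : G.Y 0 => (some ⟨0, u⟩ : G.M)) ⊆ t := by
      rintro _ ⟨u, rfl⟩
      have hm : (some ⟨0, u⟩ : G.M) ∈ Metric.closedBall (none : G.M) (G.Lam 0) := by
        have := G.d_le_rho (some ⟨0, u⟩) none
        simp only [rho, add_zero] at this
        exact this
      obtain ⟨y, hy, hxy⟩ := Set.mem_iUnion₂.1 (hcov hm)
      have : (some ⟨0, u⟩ : G.M) = y := by
        by_contra hne
        have h1 := G.one_le_d hne
        have h2 : G.d (some ⟨0, u⟩) y < 1 := hxy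
        linarith
      change (some ⟨0, u⟩ : G.M) ∈ t
      rw [this]; exact hy
    refine Set.infinite_range_of_injective (f := fun u : G.Y 0 => (some ⟨0, u⟩ : G.M)) ?_
      (htf.subset hsub)
    intro u v h
    simpa using h

/-- cut at level `J` -/
def cutL (J : ℕ) (v : G.M) : G.M := if G.lev v ≤ J then v else none

lemma cutL_lip (J : ℕ) (v w : G.M) : G.d (G.cutL J v) (G.cutL J w) ≤ 1 * G.d v w := by
  rw [one_mul]
  refine G.d_le _ _ _ fun f hf => G.le_d (f := fun v => f (G.cutL J v)) ⟨fun v => ?_, ?_⟩ v w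
  · have h0 : G.cutL J none = none := by simp [cutL]
    simp only [h0]
    unfold cutL
    split_ifs
    · exact hf.1 v
    · simpa using G.rho_nonneg v
  · intro j u v l h
    by_cases hj : j ≤ J
    · simpa [cutL, lev, hj] using hf.2 j u v l h
    · simpa [cutL, lev, hj] using zero_le_one.trans (G.hE j u v l h)

theorem hasAP : HasAP G.P.FreeSpace := by
  classical
  intro K hK ε hε
  obtain ⟨F₁, hF₁⟩ := exists_finset_approx G.P K hK.totallyBounded (ε / 4) (by positivity)
  let J : ℕ := F₁.sup G.lev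
  obtain ⟨T₁, hT₁, hT₁', -⟩ := exists_push G.P (G.cutL J) (by simp [cutL, P]) 1 one_pos
    (G.cutL_lip J)
  let B : ℝ := ∑ i ∈ Finset.range (J + 1), G.Lam i
  have hB : ∀ v : G.M, G.lev v ≤ J → G.rho v ≤ B := by
    intro v hv
    have hn : ∀ i ∈ Finset.range (J + 1), 0 ≤ G.Lam i :=
      fun i _ => zero_le_one.trans (G.one_le_Lam i)
    cases v with
    | none => exact Finset.sum_nonneg hn
    | some p => exact Finset.single_le_sum hn (Finset.mem_range.2 (Nat.lt_succ_of_le hv))
  have hB0 : 0 ≤ B := hB none (Nat.zero_le _)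
  obtain ⟨F₂, hF₂⟩ := exists_finset_approx G.P K hK.totallyBounded (ε / (4 * (B + 1)))
    (by positivity)
  let r : G.M → G.M := fun v => if v ∈ F₂ then G.cutL J v else none
  have hr : ∀ v, G.rho (r v) ≤ B := by
    intro v
    apply hB
    simp only [r, cutL]
    split_ifs with h1 h2
    · exact h2
    · exact Nat.zero_le _
    · exact Nat.zero_le _
  obtain ⟨T, hT, hT', hfin⟩ := exists_push G.P r (by simp [r, cutL, P]) (2 * B + 1) (by positivity)
    (fun v w => by
      rw [dd_eq, dd_eq]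
      by_cases h : v = w
      · subst h; simp [d_self]
      · have h1 := G.one_le_d h
        have h2 := G.d_le_rho (r v) (r w)
        have h3 := hr v
        have h4 := hr w
        nlinarith)
  refine ⟨T, hfin ?_, fun x hx => ?_⟩
  · refine ((F₂.finite_toSet.image (G.cutL J)).insert none).subset ?_
    rintro _ ⟨v, rfl⟩
    simp only [r]
    split_ifs with h
    · exact Or.inr ⟨v, h, rfl⟩
    · exact Or.inl rfl
  · obtain ⟨a, ha, hxa⟩ := hF₁ x hx
    obtain ⟨b, hb, hxb⟩ := hF₂ x hx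
    have e1 : T₁ (a : G.P.FreeSpace) = a := by
      rw [hT₁', pushL_congr G.P _ id a, pushL_id]
      intro v hv
      have : G.lev v ≤ J := Finset.le_sup (f := G.lev) (ha hv)
      simp [cutL, this]
    have e2 : T (b : G.P.FreeSpace) = T₁ b := by
      rw [hT', hT₁', pushL_congr G.P r (G.cutL J) b]
      intro v hv
      simp [r, hb hv]
    have e3 : T x - x = T (x - b) - T₁ (x - b) + (T₁ (x - a) - (x - a)) := by
      simp only [map_sub, e1, e2]; abel
    have h1 := hT (x - b)
    have h2 := hT₁ (x - b)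
    have h3 := hT₁ (x - a)
    have h4 : (2 * B + 2) * ‖x - (b : G.P.FreeSpace)‖ ≤ ε / 2 := by
      calc _ ≤ (2 * B + 2) * (ε / (4 * (B + 1))) := by gcongr
        _ = ε / 2 := by field_simp; ring
    rw [e3]
    have h5 := norm_add_le (T (x - b) - T₁ (x - b)) (T₁ (x - a) - (x - a))
    have h6 := norm_sub_le (T (x - b)) (T₁ (x - b))
    have h7 := norm_sub_le (T₁ (x - a)) (x - a)
    linarith

/-- the combinatorial obstruction at level `j` -/
def Core (j : ℕ) (c : ℝ) : Prop :=
  ∃ A : Set (G.Y j), A.Finite ∧ ∀ (F : Finset (G.Y j)) (Φ : G.Y j → G.Y j → ℝ),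
    (∀ (L : ℝ) (g : G.Y j → ℝ), 0 < L → (∀ v, |g v| ≤ L * G.Lam j) →
      (∀ u v l, G.E j u v l → |g u - g v| ≤ L * l) →
      (∀ u u' l, G.E j u u' l →
        |∑ v ∈ F, Φ u v * g v - ∑ v ∈ F, Φ u' v * g v| ≤ c * l * L) ∧
      (∀ u a l, a ∈ A → G.E j u a l → |∑ v ∈ F, Φ u v * g v - g a| ≤ c * l * L)) → False

/-- extension by zero -/
noncomputable def ext (j : ℕ) (g : G.Y j → ℝ) : G.M → ℝ :=
  Function.extend (fun u : G.Y j => (some ⟨j, u⟩ : G.M)) g 0

lemma inj_lev (j : ℕ) : Function.Injective (fun u : G.Y j => (some ⟨j, u⟩ : G.M)) := by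
  intro u v h
  simpa using h

lemma ext_apply (j : ℕ) (g : G.Y j → ℝ) (u : G.Y j) : G.ext j g (some ⟨j, u⟩) = g u :=
  (G.inj_lev j).extend_apply _ _ _

lemma ext_of_not (j : ℕ) (g : G.Y j → ℝ) (v : G.M)
    (h : ¬ ∃ u : G.Y j, (some ⟨j, u⟩ : G.M) = v) : G.ext j g v = 0 :=
  Function.extend_apply' _ _ _ h

lemma ext_none (j : ℕ) (g : G.Y j → ℝ) : G.ext j g none = 0 :=
  G.ext_of_not j g none (by simp)

lemma ext_adm (j : ℕ) (g : G.Y j → ℝ) (L : ℝ) (hL : 0 < L) (h1 : ∀ v, |g v| ≤ L * G.Lam j)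
    (h2 : ∀ u v l, G.E j u v l → |g u - g v| ≤ L * l) : G.Adm L (G.ext j g) := by
  refine ⟨fun v => ?_, fun i u v l h => ?_⟩
  · rw [ext_none, sub_zero]
    by_cases h : ∃ u : G.Y j, (some ⟨j, u⟩ : G.M) = v
    · obtain ⟨u, rfl⟩ := h
      rw [ext_apply]; exact h1 u
    · rw [G.ext_of_not j g v h, abs_zero]
      exact mul_nonneg hL.le (G.rho_nonneg v)
  · by_cases hij : i = j
    · subst hij
      rw [ext_apply, ext_apply]; exact h2 u v l h
    · rw [G.ext_of_not, G.ext_of_not, sub_zero, abs_zero]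
      · exact mul_nonneg hL.le (zero_le_one.trans (G.hE i u v l h))
      · rintro ⟨w, hw⟩
        exact hij (congrArg G.lev hw).symm
      · rintro ⟨w, hw⟩
        exact hij (congrArg G.lev hw).symm

theorem not_hasBAP (hG : ∀ c : ℝ, ∃ j, G.Core j c) : ¬ HasBAP G.P.FreeSpace := by
  classical
  rintro ⟨lam, hlam⟩
  obtain ⟨j, A, hA, hcore⟩ := hG (lam + 2)
  let ι : G.Y j → G.M := fun u => some ⟨j, u⟩
  let δ : G.Y j → G.P.FreeSpace := fun u => ((dl G.P (ι u) : G.P.Mol) : G.P.FreeSpace)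
  obtain ⟨T, hfin, hT, hTA⟩ := hlam (δ '' A) (hA.image _).isCompact 1 one_pos
  have hlam0 : 0 ≤ lam := (norm_nonneg _).trans hT
  have hδ : ∀ u, ‖δ u‖ ≤ G.Lam j := fun u => by
    simp only [δ, Completion.norm_coe]
    refine (norm_dl G.P _).trans ?_
    have := G.d_le_rho (ι u) none
    rw [dd_eq]
    simpa [rho, ι] using this
  have hδ2 : ∀ u v l, G.E j u v l → ‖T (δ u) - T (δ v)‖ ≤ lam * l := fun u v l h => by
    rw [← map_sub]
    refine (T.le_opNorm _).trans (mul_le_mul hT ?_ (norm_nonneg _) hlam0)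
    simp only [δ]
    rw [← Completion.coe_sub, Completion.norm_coe]
    exact (norm_dl_sub G.P _ _).trans (G.d_edge h)
  have htb : TotallyBounded (Set.range fun u => T (δ u)) := by
    let W := LinearMap.range T.toLinearMap
    haveI : ProperSpace W := FiniteDimensional.proper_real W
    have hc : IsCompact (((↑) : W → G.P.FreeSpace) '' Metric.closedBall 0 (lam * G.Lam j)) :=
      (isCompact_closedBall _ _).image continuous_subtype_val
    refine hc.totallyBounded.subset ?_
    rintro _ ⟨u, rfl⟩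
    refine ⟨⟨T (δ u), ⟨δ u, rfl⟩⟩, ?_, rfl⟩
    rw [mem_closedBall_zero_iff]
    change ‖T (δ u)‖ ≤ _
    exact (T.le_opNorm _).trans (mul_le_mul hT (hδ u) (norm_nonneg _) hlam0)
  obtain ⟨F, hF⟩ := exists_finset_approx G.P _ htb 1 one_pos
  have hF' : ∀ u, ∃ a : G.P.Mol, (G.P.coeffs a).support ⊆ F ∧
      ‖T (δ u) - (a : G.P.FreeSpace)‖ ≤ 1 := fun u => hF _ ⟨u, rfl⟩
  choose a ha1 ha2 using hF'
  refine hcore (F.preimage ι (G.inj_lev j).injOn) (fun u v => G.P.coeffs (a u) (ι v)) ?_
  intro L g hL h1 h2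
  have hadm := G.ext_adm j g L hL h1 h2
  have hpair : ∀ u, ∑ v ∈ F.preimage ι (G.inj_lev j).injOn, G.P.coeffs (a u) (ι v) * g v =
      G.P.pairing (a u) (G.ext j g) := by
    intro u
    unfold pairing
    rw [Finsupp.sum_of_support_subset _ (ha1 u) _ (by simp)]
    rw [← Finset.sum_preimage ι F (G.inj_lev j).injOn
      (fun w => G.P.coeffs (a u) w * G.ext j g w)]
    · refine Finset.sum_congr rfl fun v _ => ?_
      simp only [ι]
      rw [ext_apply]
    · intro w _ hw
      rw [G.ext_of_not j g w hw, mul_zero]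
  have hbd : ∀ m : G.P.Mol, |G.P.pairing m (G.ext j g)| ≤ L * ‖m‖ := fun m =>
    abs_pairing_le_mul G.P m _ L hL (G.ext_none j g) (fun v w => G.le_mul_d hL hadm v w)
  refine ⟨fun u u' l h => ?_, fun u b l hb h => ?_⟩
  · rw [hpair, hpair, ← pairing_sub]
    refine (hbd _).trans ?_
    have hl := G.hE j u u' l h
    have : ‖a u - a u'‖ ≤ (lam + 2) * l := by
      rw [← Completion.norm_coe, Completion.coe_sub]
      have e : (a u : G.P.FreeSpace) - a u' =
          (T (δ u) - T (δ u')) - (T (δ u) - a u) + (T (δ u') - a u') := by abel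
      rw [e]
      have h5 := norm_add_le ((T (δ u) - T (δ u')) - (T (δ u) - a u)) (T (δ u') - a u')
      have h6 := norm_sub_le (T (δ u) - T (δ u')) (T (δ u) - a u)
      have h7 := hδ2 u u' l h
      have h8 := ha2 u
      have h9 := ha2 u'
      linarith
    rw [mul_comm _ L]
    gcongr
  · have e0 : g b = G.P.pairing (dl G.P (ι b)) (G.ext j g) := by
      rw [pairing_dl]; exact (G.ext_apply j g b).symm
    rw [hpair, e0, ← pairing_sub]
    refine (hbd _).trans ?_
    have hl := G.hE j u b l h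
    have : ‖a u - dl G.P (ι b)‖ ≤ (lam + 2) * l := by
      rw [← Completion.norm_coe, Completion.coe_sub]
      have e : (a u : G.P.FreeSpace) - (dl G.P (ι b) : G.P.Mol) =
          (T (δ u) - T (δ b)) - (T (δ u) - a u) + (T (δ b) - δ b) := by simp only [δ]; abel
      rw [e]
      have h5 := norm_add_le ((T (δ u) - T (δ b)) - (T (δ u) - a u)) (T (δ b) - δ b)
      have h6 := norm_sub_le (T (δ u) - T (δ b)) (T (δ u) - a u)
      have h7 := hδ2 u b l h
      have h8 := ha2 u
      have h9 := hTA (δ b) ⟨b, hb, rfl⟩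
      linarith
    rw [mul_comm _ L]
    gcongr

end Gad

end Crest.Agent.R115
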