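import Crest.Agent.R115.Core
import Crest.Agent.R115.Space

/-! The obstruction and the final space. -/

set_option autoImplicit false
set_option linter.style.haveILetI false

namespace Crest.Agent.R115

open Matrix MatrixGroups

/-- action as a permutation of the torus -/
def permT (σ : SL(2, ℤ)) : Equiv.Perm TT :=
  ⟨act σ.1, act (σ⁻¹ : SL(2, ℤ)).1, act_inv_act σ, act_act_inv σ⟩

lemma tors_act (σ : SL(2, ℤ)) (k : ℕ) (y : TT) : k • act σ.1 y = 0 ↔ k • y = 0 := by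
  rw [← act_nsmul]
  constructor
  · intro h
    rw [← act_inv_act σ (k • y), h, act_zero]
  · intro h
    rw [h, act_zero]

/-- `k`-torsion points -/
abbrev ZZ (k : ℕ) : Type := {z : TT // k • z = 0}
/-- new points -/
abbrev NN (k : ℕ) : Type := {x : TT // (k + 1) • x = 0 ∧ k • x ≠ 0}

/-- permutation of `ZZ k` -/
def permZ (σ : SL(2, ℤ)) (k : ℕ) : Equiv.Perm (ZZ k) :=
  (permT σ).subtypePerm fun y => tors_act σ k y

/-- permutation of `NN k` -/
def permN (σ : SL(2, ℤ)) (k : ℕ) : Equiv.Perm (NN k) :=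
  (permT σ).subtypePerm fun y => and_congr (tors_act σ _ y) (not_congr (tors_act σ k y))

/-- permutation of the ping-pong table -/
def permO (m : ℕ) (σ : SL(2, ℤ)) (k : ℕ) : Equiv.Perm ((SL(2, ZMod m) × NN k) × ZZ k) :=
  Equiv.prodCongr (Equiv.prodCongr (Equiv.mulLeft (red m σ)) (permN σ k)) (permZ σ k)

/-- inclusion -/
def inc {m k : ℕ} (p : SL(2, ZMod m) × NN k) : YY m := (p.1, ⟨p.2.1, k + 1, k.succ_pos, p.2.2.1⟩)

/-- difference -/
def dif {m k : ℕ} (ω : (SL(2, ZMod m) × NN k) × ZZ k) : TT := ω.1.2.1 - ω.2.1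

lemma dif_perm (m : ℕ) (σ : SL(2, ℤ)) (k : ℕ) (ω : (SL(2, ZMod m) × NN k) × ZZ k) :
    dif (permO m σ k ω) = act σ.1 (dif ω) := by
  unfold dif; rw [act_sub]; rfl

lemma dif_perm_symm (m : ℕ) (σ : SL(2, ℤ)) (k : ℕ) (ω : (SL(2, ZMod m) × NN k) × ZZ k) :
    dif ((permO m σ k).symm ω) = act (σ⁻¹ : SL(2, ℤ)).1 (dif ω) := by
  conv_rhs => rw [← (permO m σ k).apply_symm_apply ω, dif_perm, act_inv_act]

lemma dif_ne {m k : ℕ} (ω : (SL(2, ZMod m) × NN k) × ZZ k) : dif ω ≠ 0 := by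
  intro h
  have h1 : ω.1.2.1 = ω.2.1 := sub_eq_zero.1 h
  exact ω.1.2.2.2 (by rw [h1]; exact ω.2.2)

open Classical in
/-- the pulled-back coefficients -/
noncomputable def kap {m : ℕ} (θ : ℝ) (h : ℝ → ℝ) (F : Finset (YY m)) (Φ : YY m → YY m → ℝ)
    (u : YY m) (z : TT) : ℝ :=
  ∑ v ∈ F, Φ u v * (chi θ h u v * if Pb u v = z then 1 else 0)

lemma sum_kap {m : ℕ} (θ : ℝ) (h : ℝ → ℝ) (F : Finset (YY m)) (Φ : YY m → YY m → ℝ)
    (k : ℕ) [Fintype (ZZ k)] (hk : ∀ v ∈ F, k • v.2.1 = 0) (u : YY m) (ε : TT → ℝ)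
    (τ : SL(2, ℤ)) :
    ∑ z : ZZ k, ε z.1 * kap θ h F Φ u (act τ.1 z.1) =
      ∑ v ∈ F, Φ u v * (chi θ h u v * ε (act (τ⁻¹ : SL(2, ℤ)).1 (Pb u v))) := by
  classical
  unfold kap
  simp only [Finset.mul_sum]
  rw [Finset.sum_comm]
  refine Finset.sum_congr rfl fun v hv => ?_
  have hz : k • act (τ⁻¹ : SL(2, ℤ)).1 (Pb u v) = 0 := by
    rw [tors_act]
    unfold Pb
    rw [← act_nsmul, hk v hv, act_zero]
  rw [Finset.sum_eq_single (⟨_, hz⟩ : ZZ k)]
  · simp only [act_act_inv, if_true]; ring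
  · intro z _ hne
    rw [if_neg]
    · ring
    · intro e
      apply hne
      apply Subtype.ext
      simp only [e, act_inv_act]
  · intro h; exact absurd (Finset.mem_univ _) h

theorem core_of {m : ℕ} [NeZero m] {θ β : ℝ} {h : ℝ → ℝ} (H : Par m θ β h) (c R Λ : ℝ)
    (hR : 1 ≤ R) (hβR : β ≤ 2 / R) (hΛ1 : R ≤ Λ) (hΛ2 : 1 ≤ β * Λ)
    (hnum : 4 * (c * (2 / R) + c * R * (2 * β) + β) < 1 - c * R * β) :
    ∃ A : Set (YY m), A.Finite ∧ ∀ (F : Finset (YY m)) (Φ : YY m → YY m → ℝ),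
    (∀ (L : ℝ) (g : YY m → ℝ), 0 < L → (∀ v, |g v| ≤ L * Λ) →
      (∀ u v l, EE m (θ / 10) R u v l → |g u - g v| ≤ L * l) →
      (∀ u u' l, EE m (θ / 10) R u u' l →
        |∑ v ∈ F, Φ u v * g v - ∑ v ∈ F, Φ u' v * g v| ≤ c * l * L) ∧
      (∀ u a l, a ∈ A → EE m (θ / 10) R u a l →
        |∑ v ∈ F, Φ u v * g v - g a| ≤ c * l * L)) → False := by
  classical
  have hθ := H.θpos
  have hβ := H.βpos
  obtain ⟨Q, hQ⟩ := exists_nat_ge (10 / θ)
  have hQ0 : (0 : ℝ) < Q := lt_of_lt_of_le (by positivity) hQ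
  have hQ1 : 0 < Q := by exact_mod_cast hQ0
  have hQ2 : (1 : ℝ) / Q ≤ θ / 10 := by
    rw [div_le_iff₀ hθ] at hQ
    rw [div_le_div_iff₀ hQ0 (by norm_num)]; linarith
  let A : Set (YY m) := {a | Q • a.2.1 = 0}
  have hA : A.Finite := by
    have h1 : {x : XX | Q • x.1 = 0}.Finite :=
      (finite_tors Q hQ1).preimage (f := fun x : XX => x.1) Subtype.val_injective.injOn
    exact ((Set.finite_univ (α := SL(2, ZMod m))).prod h1).subset fun a ha => ⟨trivial, ha⟩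
  refine ⟨A, hA, fun F Φ hyp => ?_⟩
  have hanc : ∀ u : YY m, ∃ a ∈ A, EE m (θ / 10) R u a R ∧ chi θ h u a = 1 := by
    intro u
    obtain ⟨g, hg, hg'⟩ := exists_grid Q hQ1 u.2.1
    refine ⟨(u.1, ⟨g, Q, hQ1, hg⟩), hg, Or.inr ⟨rfl, rfl, hg'.trans hQ2⟩, ?_⟩
    exact H.anchor rfl (hg'.trans hQ2)
  obtain ⟨k, hk, hkF⟩ := exists_common (F.image Prod.snd)
  have hkF' : ∀ v ∈ F, k • v.2.1 = 0 := fun v hv => hkF _ (Finset.mem_image_of_mem _ hv)
  haveI : Finite (ZZ k) := (finite_tors k hk).to_subtype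
  haveI : Finite (NN k) :=
    ((finite_tors (k + 1) k.succ_pos).subset
      (t := {x : TT | (k + 1) • x = 0 ∧ k • x ≠ 0}) fun _ hx => hx.1).to_subtype
  haveI : Nonempty (NN k) := by
    obtain ⟨x, hx⟩ := exists_new k hk
    exact ⟨⟨x, hx⟩⟩
  letI := Fintype.ofFinite (ZZ k)
  letI := Fintype.ofFinite (SL(2, ZMod m) × NN k)
  have hR0 : 0 < R := by linarith
  have hchi : ∀ u v : YY m, |chi θ h u v| ≤ 1 := fun u v => by
    unfold chi
    rw [abs_of_nonneg (H.h01 _).1]; exact (H.h01 _).2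
  -- lower bound on the mass
  have low : ∀ u : YY m, 1 - c * R * β ≤ ∑ z : ZZ k, |kap θ h F Φ u z.1| := by
    intro u
    obtain ⟨a, ha, hE, h1⟩ := hanc u
    have h2 := (hyp β (fun v => chi θ h u v) hβ (fun v => (hchi u v).trans hΛ2)
      (fun v w l hl => by
        rcases hl with ⟨rfl, σ, hσ, hm⟩ | ⟨rfl, e1, e2⟩
        · rcases H.move_v hσ u hm with ⟨z1, z2⟩ | ⟨-, z⟩
          · simp [z1, z2, hβ.le]
          · simpa using z
        · exact (H.long u e1 e2).trans (le_mul_of_one_le_right hβ.le hR))).2 u a R ha hE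
    have h3 := sum_kap θ h F Φ k hkF' u (fun _ => 1) 1
    simp only [one_mul, mul_one, Matrix.SpecialLinearGroup.coe_one, act_one] at h3
    simp only [h1] at h2
    rw [← h3] at h2
    have h4 : ∑ z : ZZ k, kap θ h F Φ u z.1 ≤ ∑ z : ZZ k, |kap θ h F Φ u z.1| :=
      Finset.sum_le_sum fun _ _ => le_abs_self _
    linarith [(abs_le.1 h2).1]
  -- gradient bound
  have grad : ∀ (σ : SL(2, ℤ)), nrm σ.1 ≤ 4 → ∀ u u' : YY m, Mv σ u u' →
      ∑ z : ZZ k, |kap θ h F Φ u' (act σ.1 z.1) - kap θ h F Φ u z.1| ≤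
        c * (2 / R) + c * R * (2 * β) + β := by
    intro σ hσ u u' hu
    let ε : TT → ℝ := fun z =>
      if 0 ≤ kap θ h F Φ u' (act σ.1 z) - kap θ h F Φ u z then 1 else -1
    have hε : ∀ z, |ε z| = 1 := fun z => by simp only [ε]; split_ifs <;> simp
    have e1 : ∑ z : ZZ k, |kap θ h F Φ u' (act σ.1 z.1) - kap θ h F Φ u z.1| =
        ∑ z : ZZ k, ε z.1 * kap θ h F Φ u' (act σ.1 z.1) -
          ∑ z : ZZ k, ε z.1 * kap θ h F Φ u (act (1 : SL(2, ℤ)).1 z.1) := by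
      rw [← Finset.sum_sub_distrib]
      refine Finset.sum_congr rfl fun z _ => ?_
      simp only [Matrix.SpecialLinearGroup.coe_one, act_one, ε]
      split_ifs with hz
      · rw [abs_of_nonneg hz]; ring
      · rw [abs_of_neg (not_le.1 hz)]; ring
    rw [e1, sum_kap θ h F Φ k hkF' u' ε σ, sum_kap θ h F Φ k hkF' u ε 1]
    simp only [inv_one, Matrix.SpecialLinearGroup.coe_one, act_one]
    let G' : YY m → ℝ := fun v => chi θ h u' v * ε (act (σ⁻¹ : SL(2, ℤ)).1 (Pb u' v))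
    let G : YY m → ℝ := fun v => chi θ h u v * ε (Pb u v)
    have hG' : ∀ v, |G' v| ≤ 1 := fun v => by
      simp only [G']
      rw [abs_mul, hε, mul_one]; exact hchi _ _
    have hD : ∀ v, |G' v - G v| ≤ β := fun v => by
      simp only [G', G]
      rcases H.move_u hσ hu v with ⟨z1, z2⟩ | ⟨z1, z2⟩
      · simp [z1, z2, hβ.le]
      · rw [z1, act_inv_act, ← sub_mul, abs_mul, hε, mul_one, abs_sub_comm]; exact z2
    obtain ⟨a, ha, hE, -⟩ := hanc u
    have h1 := (hyp (2 / R) G' (by positivity) (fun v => (hG' v).trans (by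
        rw [div_mul_eq_mul_div, le_div_iff₀ hR0]; linarith))
      (fun v w l hl => by
        rcases hl with ⟨rfl, τ, hτ, hm⟩ | ⟨rfl, e1, e2⟩
        · simp only [G']
          rcases H.move_v hτ u' hm with ⟨z1, z2⟩ | ⟨z1, z2⟩
          · simp only [z1, z2, zero_mul, sub_zero, abs_zero]; positivity
          · rw [z1, ← sub_mul, abs_mul, hε, mul_one, mul_one]; exact z2.trans hβR
        · rw [div_mul_cancel₀ _ hR0.ne']
          have a1 := abs_le.1 (hG' v)
          have a2 := abs_le.1 (hG' w)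
          rw [abs_le]
          constructor <;> linarith [a1.1, a1.2, a2.1, a2.2])).1 u u' 1
      (Or.inl ⟨rfl, σ, hσ, hu⟩)
    have h2 := (hyp (2 * β) (fun v => G' v - G v) (by positivity) (fun v => (hD v).trans (by
        nlinarith))
      (fun v w l hl => by
        have hl1 : 1 ≤ l := by
          rcases hl with ⟨rfl, -⟩ | ⟨rfl, -⟩
          · exact le_rfl
          · exact hR
        have a1 := abs_le.1 (hD v)
        have a2 := abs_le.1 (hD w)
        have : 2 * β ≤ 2 * β * l := le_mul_of_one_le_right (by positivity) hl1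
        rw [abs_le]
        constructor <;> linarith [a1.1, a1.2, a2.1, a2.2])).2 u a R ha hE
    simp only [mul_sub, Finset.sum_sub_distrib] at h2
    have a1 := abs_le.1 h1
    have a2 := abs_le.1 h2
    have a3 := abs_le.1 (hD a)
    change ∑ v ∈ F, Φ u' v * G' v - ∑ v ∈ F, Φ u v * G v ≤ _
    linarith [a1.1, a2.2, a3.2]
  -- ping-pong
  let f : (SL(2, ZMod m) × NN k) × ZZ k → ℝ := fun ω => |kap θ h F Φ (inc ω.1) ω.2.1|
  have hf0 : ∀ ω, 0 ≤ f ω := fun _ => abs_nonneg _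
  have hsupp : ∀ ω, f ω ≠ 0 → ‖(dif ω).1‖ < 1 / 10 ∧ ‖(dif ω).2‖ < 1 / 10 := by
    intro ω hω
    have h1 : kap θ h F Φ (inc ω.1) ω.2.1 ≠ 0 := fun e => hω (by simp only [f, e, abs_zero])
    obtain ⟨v, -, hv⟩ := Finset.exists_ne_zero_of_sum_ne_zero h1
    have h2 : chi θ h (inc ω.1) v ≠ 0 := fun e => hv (by rw [e]; ring)
    have h3 : Pb (inc ω.1) v = ω.2.1 := by
      by_contra e
      exact hv (by rw [if_neg e]; ring)
    have h4 := (H.small h2).2
    rw [h3] at h4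
    exact ⟨(norm_fst_le _).trans_lt h4, (norm_snd_le _).trans_lt h4⟩
  let N : ℝ := Fintype.card (SL(2, ZMod m) × NN k)
  have hN : 0 < N := by
    simp only [N]; exact_mod_cast Fintype.card_pos
  have tot : N * (1 - c * R * β) ≤ ∑ ω, f ω := by
    rw [Fintype.sum_prod_type]
    have := Finset.card_nsmul_le_sum Finset.univ
      (fun p : SL(2, ZMod m) × NN k => ∑ z : ZZ k, f (p, z)) (1 - c * R * β)
      (fun p _ => low (inc p))
    rwa [nsmul_eq_mul] at this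
  have gr : ∀ σ : SL(2, ℤ), nrm σ.1 ≤ 4 →
      ∑ ω, |f (permO m σ k ω) - f ω| ≤ N * (c * (2 / R) + c * R * (2 * β) + β) := by
    intro σ hσ
    rw [Fintype.sum_prod_type]
    have := Finset.sum_le_card_nsmul Finset.univ
      (fun p : SL(2, ZMod m) × NN k => ∑ z : ZZ k, |f (permO m σ k (p, z)) - f (p, z)|)
      (c * (2 / R) + c * R * (2 * β) + β) (fun p _ => by
        refine le_trans (Finset.sum_le_sum fun z _ => ?_)
          (grad σ hσ (inc p) (inc (permO m σ k (p, ⟨0, smul_zero _⟩)).1) ⟨rfl, rfl⟩)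
        exact abs_abs_sub_abs_le_abs_sub _ _)
    rwa [nsmul_eq_mul] at this
  have p1 := pingpong f hf0 (permO m gU k) (fun ω => ‖(dif ω).2‖ ≤ ‖(dif ω).1‖)
    (fun ω => ‖(dif ω).1‖ ≤ ‖(dif ω).2‖)
    (fun ω hω hB => by
      simp only [dif_perm, dif_perm_symm, act_gU, act_gU']
      exact pp1 _ _ (hsupp ω hω).2 hB)
    (fun ω ω' hω hB hω' hB' e => by
      have e' := congrArg dif e
      rw [dif_perm, dif_perm_symm, act_gU, act_gU', Prod.mk.injEq] at e'
      rw [← e'.2] at hB'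
      have := pp2 _ _ _ (hsupp ω hω).2 hB hB' (by rw [e'.1, e'.2])
      exact dif_ne ω (Prod.ext this.1 this.2))
  have p2 := pingpong f hf0 (permO m gV k) (fun ω => ‖(dif ω).1‖ ≤ ‖(dif ω).2‖)
    (fun ω => ‖(dif ω).2‖ ≤ ‖(dif ω).1‖)
    (fun ω hω hB => by
      simp only [dif_perm, dif_perm_symm, act_gV, act_gV']
      exact pp1 _ _ (hsupp ω hω).1 hB)
    (fun ω ω' hω hB hω' hB' e => by
      have e' := congrArg dif e
      rw [dif_perm, dif_perm_symm, act_gV, act_gV', Prod.mk.injEq] at e'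
      rw [← e'.1] at hB'
      have := pp2 _ _ _ (hsupp ω hω).1 hB hB' (by rw [e'.2, e'.1])
      exact dif_ne ω (Prod.ext this.2 this.1))
  have p3 : ∑ ω, f ω ≤
      ∑ ω ∈ Finset.univ.filter (fun ω => ‖(dif ω).2‖ ≤ ‖(dif ω).1‖), f ω +
      ∑ ω ∈ Finset.univ.filter (fun ω => ‖(dif ω).1‖ ≤ ‖(dif ω).2‖), f ω := by
    rw [← Finset.sum_filter_add_sum_filter_not Finset.univ
      (fun ω => ‖(dif ω).2‖ ≤ ‖(dif ω).1‖)]
    refine add_le_add le_rfl (Finset.sum_le_sum_of_subset_of_nonneg (fun ω hω => ?_)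
      fun _ _ _ => hf0 _)
    simp only [Finset.mem_filter, Finset.mem_univ, true_and, not_le] at hω ⊢
    exact hω.le
  have g1 := gr gU nrm_gU
  have g2 := gr gV nrm_gV
  have fin := mul_lt_mul_of_pos_left hnum hN
  linarith

lemma exists_par (β : ℝ) (hβ : 0 < β) : ∃ (m : ℕ) (θ : ℝ) (h : ℝ → ℝ), Par (m + 1) θ β h := by
  obtain ⟨W0, h, hW, h1, h2, h3, h4⟩ := exists_h β hβ
  obtain ⟨m, hm⟩ := exists_nat_ge (32 / W0 + 4)
  have h5 : 0 < 32 / W0 := by positivity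
  refine ⟨m, W0 / 4, h, by positivity, hβ, h1, h2, fun W a b => h3 W a (by linarith), h4, ?_, ?_⟩
  · have : 32 / W0 ≤ ((m + 1 : ℕ) : ℝ) := by push_cast; linarith
    rw [div_le_iff₀ hW] at this
    linarith
  · push_cast; linarith

theorem exists_gad : ∃ G : Gad, ∀ c : ℝ, ∃ j, G.Core j c := by
  have hb : ∀ j : ℕ, (0 : ℝ) < 1 / (1000 * (j + 1) ^ 2) := fun j => by positivity
  choose m θ h H using fun j : ℕ => exists_par _ (hb j)
  refine ⟨⟨fun j => YY (m j + 1), fun _ => inferInstance, fun _ => inferInstance,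
    fun j => EE (m j + 1) (θ j / 10) (32 * (j + 1)), fun j u v l hl => ?_,
    fun j => 1000 * (j + 1) ^ 2, fun j => ?_⟩, fun c => ?_⟩
  · have : (0 : ℝ) ≤ j := Nat.cast_nonneg j
    rcases hl with ⟨rfl, -⟩ | ⟨rfl, -⟩ <;> linarith
  · have : (0 : ℝ) ≤ j := Nat.cast_nonneg j
    nlinarith
  · obtain ⟨j, hj⟩ := exists_nat_ge c
    have hj0 : (0 : ℝ) ≤ j := Nat.cast_nonneg j
    obtain ⟨A, hA, hcore⟩ := core_of (H j) (j + 1) (32 * (j + 1)) (1000 * (j + 1) ^ 2)
      (by linarith)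
      (by rw [div_le_div_iff₀ (by positivity) (by positivity)]; nlinarith)
      (by nlinarith) (by rw [one_div_mul_cancel (by positivity)])
      (by
        have e1 : ((j : ℝ) + 1) * (2 / (32 * (j + 1))) = 1 / 16 := by field_simp; norm_num
        have e2 : ((j : ℝ) + 1) * (32 * (j + 1)) * (2 * (1 / (1000 * (j + 1) ^ 2))) =
            64 / 1000 := by field_simp; norm_num
        have e3 : ((j : ℝ) + 1) * (32 * (j + 1)) * (1 / (1000 * (j + 1) ^ 2)) = 32 / 1000 := by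
          field_simp
        have e4 : (1 : ℝ) / (1000 * (j + 1) ^ 2) ≤ 1 / 1000 := by
          rw [div_le_div_iff₀ (by positivity) (by positivity)]; nlinarith
        rw [e1, e2, e3]; linarith)
    refine ⟨j, A, hA, fun F Φ hyp => hcore F Φ fun L g hL h1 h2 => ?_⟩
    have hl : ∀ u v l, EE (m j + 1) (θ j / 10) (32 * (j + 1)) u v l →
        c * l * L ≤ (j + 1) * l * L := by
      intro u v l hl
      have : 0 ≤ l := by rcases hl with ⟨rfl, -⟩ | ⟨rfl, -⟩ <;> linarith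
      gcongr
      linarith
    obtain ⟨a1, a2⟩ := hyp L g hL h1 h2
    exact ⟨fun u u' l e => (a1 u u' l e).trans (hl _ _ _ e),
      fun u a l ha e => (a2 u a l ha e).trans (hl _ _ _ e)⟩

end Crest.Agent.R115
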