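import Mathlib

/-! Integer matrices acting on the two-torus, small lifts modulo `m`, ping-pong. -/

set_option autoImplicit false
set_option linter.style.haveILetI false

namespace Crest.Agent.R115

open Matrix MatrixGroups

abbrev Mat : Type := Matrix (Fin 2) (Fin 2) ℤ
abbrev TT : Type := UnitAddCircle × UnitAddCircle

/-- action of an integer matrix on the torus -/
def act (γ : Mat) (y : TT) : TT := (γ 0 0 • y.1 + γ 0 1 • y.2, γ 1 0 • y.1 + γ 1 1 • y.2)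

lemma act_mul (γ γ' : Mat) (y : TT) : act (γ * γ') y = act γ (act γ' y) := by
  simp only [act, Matrix.mul_apply, Fin.sum_univ_two, add_smul, smul_add, mul_smul]
  congr 1 <;> abel

lemma act_one (y : TT) : act 1 y = y := by simp [act]

lemma act_sub (γ : Mat) (x y : TT) : act γ (x - y) = act γ x - act γ y := by
  simp only [act, Prod.fst_sub, Prod.snd_sub, smul_sub, Prod.mk_sub_mk]
  congr 1 <;> abel

lemma act_nsmul (γ : Mat) (n : ℕ) (y : TT) : act γ (n • y) = n • act γ y := by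
  simp only [act, Prod.smul_fst, Prod.smul_snd, Prod.smul_mk, smul_add, smul_comm n]

lemma act_zero (γ : Mat) : act γ 0 = 0 := by simp [act]

lemma act_inv_act (σ : SL(2, ℤ)) (y : TT) : act (σ⁻¹ : SL(2, ℤ)).1 (act σ.1 y) = y := by
  rw [← act_mul, ← Matrix.SpecialLinearGroup.coe_mul, inv_mul_cancel,
    Matrix.SpecialLinearGroup.coe_one, act_one]

lemma act_act_inv (σ : SL(2, ℤ)) (y : TT) : act σ.1 (act (σ⁻¹ : SL(2, ℤ)).1 y) = y := by
  rw [← act_mul, ← Matrix.SpecialLinearGroup.coe_mul, mul_inv_cancel,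
    Matrix.SpecialLinearGroup.coe_one, act_one]

/-- the `ℓ¹` norm of the entries -/
def nrm (γ : Mat) : ℝ := |(γ 0 0 : ℝ)| + |(γ 0 1 : ℝ)| + |(γ 1 0 : ℝ)| + |(γ 1 1 : ℝ)|

lemma nrm_nonneg (γ : Mat) : 0 ≤ nrm γ := by unfold nrm; positivity

lemma nrm_one : nrm 1 = 2 := by simp [nrm]; norm_num

lemma abs_le_nrm (γ : Mat) (i j : Fin 2) : |(γ i j : ℝ)| ≤ nrm γ := by
  have h1 := abs_nonneg (γ 0 0 : ℝ)
  have h2 := abs_nonneg (γ 0 1 : ℝ)
  have h3 := abs_nonneg (γ 1 0 : ℝ)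
  have h4 := abs_nonneg (γ 1 1 : ℝ)
  unfold nrm
  fin_cases i <;> fin_cases j <;> simp only [Fin.zero_eta, Fin.mk_one, Fin.isValue] <;> linarith

lemma nrm_mul (γ γ' : Mat) : nrm (γ * γ') ≤ nrm γ * nrm γ' := by
  have key : ∀ a b c d : ℝ, |a * b + c * d| ≤ |a| * |b| + |c| * |d| := fun a b c d => by
    rw [← abs_mul, ← abs_mul]; exact abs_add_le _ _
  simp only [nrm, Matrix.mul_apply, Fin.sum_univ_two, Int.cast_add, Int.cast_mul]
  have h1 := key (γ 0 0) (γ' 0 0) (γ 0 1) (γ' 1 0)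
  have h2 := key (γ 0 0) (γ' 0 1) (γ 0 1) (γ' 1 1)
  have h3 := key (γ 1 0) (γ' 0 0) (γ 1 1) (γ' 1 0)
  have h4 := key (γ 1 0) (γ' 0 1) (γ 1 1) (γ' 1 1)
  generalize |(γ 0 0 : ℝ) * γ' 0 0 + γ 0 1 * γ' 1 0| = p1 at *
  generalize |(γ 0 0 : ℝ) * γ' 0 1 + γ 0 1 * γ' 1 1| = p2 at *
  generalize |(γ 1 0 : ℝ) * γ' 0 0 + γ 1 1 * γ' 1 0| = p3 at *
  generalize |(γ 1 0 : ℝ) * γ' 0 1 + γ 1 1 * γ' 1 1| = p4 at *
  have a1 := abs_nonneg (γ 0 0 : ℝ)
  have a2 := abs_nonneg (γ 0 1 : ℝ)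
  have a3 := abs_nonneg (γ 1 0 : ℝ)
  have a4 := abs_nonneg (γ 1 1 : ℝ)
  have b1 := abs_nonneg (γ' 0 0 : ℝ)
  have b2 := abs_nonneg (γ' 0 1 : ℝ)
  have b3 := abs_nonneg (γ' 1 0 : ℝ)
  have b4 := abs_nonneg (γ' 1 1 : ℝ)
  generalize |(γ 0 0 : ℝ)| = x1 at *
  generalize |(γ 0 1 : ℝ)| = x2 at *
  generalize |(γ 1 0 : ℝ)| = x3 at *
  generalize |(γ 1 1 : ℝ)| = x4 at *
  generalize |(γ' 0 0 : ℝ)| = y1 at *
  generalize |(γ' 0 1 : ℝ)| = y2 at *
  generalize |(γ' 1 0 : ℝ)| = y3 at *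
  generalize |(γ' 1 1 : ℝ)| = y4 at *
  nlinarith [mul_nonneg a1 b3, mul_nonneg a1 b4, mul_nonneg a2 b1, mul_nonneg a2 b2,
    mul_nonneg a3 b3, mul_nonneg a3 b4, mul_nonneg a4 b1, mul_nonneg a4 b2]

lemma nrm_inv (σ : SL(2, ℤ)) : nrm (σ⁻¹ : SL(2, ℤ)).1 = nrm σ.1 := by
  rw [Matrix.SpecialLinearGroup.SL2_inv_expl]
  simp [nrm]
  ring

lemma norm_act (γ : Mat) (y : TT) : ‖act γ y‖ ≤ nrm γ * ‖y‖ := by
  have key : ∀ (a b : ℤ), ‖a • y.1 + b • y.2‖ ≤ (|(a : ℝ)| + |(b : ℝ)|) * ‖y‖ := fun a b => by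
    refine (norm_add_le _ _).trans ?_
    have h1 := norm_zsmul_le a y.1
    have h2 := norm_zsmul_le b y.2
    rw [Int.norm_eq_abs] at h1 h2
    have h3 := norm_fst_le y
    have h4 := norm_snd_le y
    have h5 := mul_le_mul_of_nonneg_left h3 (abs_nonneg (a : ℝ))
    have h6 := mul_le_mul_of_nonneg_left h4 (abs_nonneg (b : ℝ))
    linarith
  have hy := norm_nonneg y
  rw [act, Prod.norm_mk, max_le_iff]
  have a1 := abs_nonneg (γ 0 0 : ℝ)
  have a2 := abs_nonneg (γ 0 1 : ℝ)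
  have a3 := abs_nonneg (γ 1 0 : ℝ)
  have a4 := abs_nonneg (γ 1 1 : ℝ)
  constructor
  · refine (key _ _).trans (mul_le_mul_of_nonneg_right ?_ hy)
    unfold nrm; linarith
  · refine (key _ _).trans (mul_le_mul_of_nonneg_right ?_ hy)
    unfold nrm; linarith

/-- reduction modulo `m` -/
def red (m : ℕ) : SL(2, ℤ) →* SL(2, ZMod m) :=
  Matrix.SpecialLinearGroup.map (Int.castRingHom (ZMod m))

lemma coe_red (m : ℕ) (σ : SL(2, ℤ)) : (red m σ).1 = σ.1.map (Int.castRingHom (ZMod m)) := rfl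

/-- smallest integer lift -/
def gam {m : ℕ} (t : SL(2, ZMod m)) : Mat := t.1.map ZMod.valMinAbs

lemma gam_map {m : ℕ} (t : SL(2, ZMod m)) : (gam t).map (Int.castRingHom (ZMod m)) = t.1 := by
  ext i j; simp [gam]

lemma gam_eq {m : ℕ} [NeZero m] (t : SL(2, ZMod m)) (γ : Mat)
    (h : γ.map (Int.castRingHom (ZMod m)) = t.1) (hm : 2 * nrm γ < m) : gam t = γ := by
  ext i j
  simp only [gam, Matrix.map_apply]
  rw [ZMod.valMinAbs_spec]
  refine ⟨by rw [← h]; simp, ?_⟩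
  have h1 := abs_le_nrm γ i j
  have h2 := abs_lt.1 (show |(γ i j : ℝ)| < m / 2 by linarith)
  constructor
  · have : (-(m : ℝ)) < (γ i j : ℝ) * 2 := by linarith [h2.1]
    exact_mod_cast this
  · have : (γ i j : ℝ) * 2 ≤ m := by linarith [h2.2]
    exact_mod_cast this

lemma gam_left {m : ℕ} [NeZero m] (t : SL(2, ZMod m)) (σ : SL(2, ℤ)) (hσ : nrm σ.1 ≤ 4)
    (hm : 8 * nrm (gam t) < m) : gam (red m σ * t) = σ.1 * gam t := by
  apply gam_eq
  · rw [Matrix.map_mul, gam_map, Matrix.SpecialLinearGroup.coe_mul, coe_red]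
  · have := nrm_mul σ.1 (gam t)
    have h2 := nrm_nonneg (gam t)
    nlinarith

lemma gam_right {m : ℕ} [NeZero m] (t : SL(2, ZMod m)) (σ : SL(2, ℤ)) (hσ : nrm σ.1 ≤ 4)
    (hm : 8 * nrm (gam t) < m) : gam (t * red m σ) = gam t * σ.1 := by
  apply gam_eq
  · rw [Matrix.map_mul, gam_map, Matrix.SpecialLinearGroup.coe_mul, coe_red]
  · have := nrm_mul (gam t) σ.1
    have h2 := nrm_nonneg (gam t)
    nlinarith

lemma gam_one {m : ℕ} [NeZero m] (hm : (4 : ℝ) < m) : gam (1 : SL(2, ZMod m)) = 1 := by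
  apply gam_eq
  · simp
  · rw [nrm_one]; linarith

lemma exists_lift (t : UnitAddCircle) : ∃ a : ℝ, (a : UnitAddCircle) = t ∧ |a| = ‖t‖ := by
  induction t using QuotientAddGroup.induction_on with
  | H b =>
    refine ⟨b - round b, ?_, ?_⟩
    · rw [AddCircle.coe_sub, sub_eq_self, AddCircle.coe_eq_zero_iff]
      exact ⟨round b, by simp⟩
    · exact UnitAddCircle.norm_eq.symm

lemma norm_nsmul_small (n : ℕ) (t : UnitAddCircle) (h : n * ‖t‖ ≤ 1 / 2) :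
    ‖n • t‖ = n * ‖t‖ := by
  obtain ⟨a, rfl, ha⟩ := exists_lift t
  have e : |(n : ℝ) * a| = n * ‖(a : UnitAddCircle)‖ := by
    rw [abs_mul, ha, Nat.abs_cast]
  rw [← AddCircle.coe_nsmul, nsmul_eq_mul, ← e, AddCircle.norm_coe_eq_abs_iff _ one_ne_zero, e]
  simpa using h

lemma exists_grid1 (Q : ℕ) (hQ : 0 < Q) (t : UnitAddCircle) :
    ∃ g : UnitAddCircle, Q • g = 0 ∧ ‖t - g‖ ≤ 1 / Q := by
  obtain ⟨a, rfl, -⟩ := exists_lift t
  have hQ' : (0 : ℝ) < Q := by exact_mod_cast hQ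
  refine ⟨((⌊Q * a⌋ / Q : ℝ) : UnitAddCircle), ?_, ?_⟩
  · rw [← AddCircle.coe_nsmul, AddCircle.coe_eq_zero_iff]
    exact ⟨⌊Q * a⌋, by simp; field_simp⟩
  · rw [← AddCircle.coe_sub]
    refine (QuotientAddGroup.norm_mk_le_norm).trans ?_
    have h1 := Int.floor_le (Q * a)
    have h2 := Int.lt_floor_add_one (Q * a)
    have e : a - ⌊Q * a⌋ / Q = (Q * a - ⌊Q * a⌋) / Q := by field_simp
    rw [e, Real.norm_eq_abs, abs_div, abs_of_pos hQ', abs_of_nonneg (by linarith)]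
    gcongr
    linarith

lemma exists_grid (Q : ℕ) (hQ : 0 < Q) (x : TT) : ∃ g : TT, Q • g = 0 ∧ ‖x - g‖ ≤ 1 / Q := by
  obtain ⟨g1, h1, h1'⟩ := exists_grid1 Q hQ x.1
  obtain ⟨g2, h2, h2'⟩ := exists_grid1 Q hQ x.2
  refine ⟨(g1, g2), by simp [h1, h2], ?_⟩
  rw [Prod.norm_def, max_le_iff]
  exact ⟨h1', h2'⟩

lemma finite_tors (n : ℕ) (hn : 0 < n) : {y : TT | n • y = 0}.Finite := by
  have h := AddCircle.finite_torsion (1 : ℝ) hn
  refine (h.prod h).subset fun y hy => ?_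
  have hy' : n • y = 0 := hy
  exact ⟨congrArg Prod.fst hy', congrArg Prod.snd hy'⟩

lemma exists_new (k : ℕ) (hk : 0 < k) : ∃ x : TT, (k + 1) • x = 0 ∧ k • x ≠ 0 := by
  have hk' : (0 : ℝ) < k := by exact_mod_cast hk
  refine ⟨(((1 / (k + 1) : ℝ) : UnitAddCircle), 0), ?_, fun h => ?_⟩
  · rw [Prod.smul_mk, smul_zero, ← AddCircle.coe_nsmul]
    have : (k + 1) • (1 / (k + 1) : ℝ) = 1 := by
      rw [nsmul_eq_mul]; push_cast; field_simp
    rw [this, AddCircle.coe_period]; rfl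
  · have h1 := congrArg Prod.fst h
    rw [Prod.smul_fst, Prod.fst_zero, ← AddCircle.coe_nsmul, AddCircle.coe_eq_zero_iff] at h1
    obtain ⟨z, hz⟩ := h1
    rw [zsmul_eq_mul, mul_one, nsmul_eq_mul] at hz
    have h2 : (0 : ℝ) < z := by rw [hz]; positivity
    have h3 : (z : ℝ) < 1 := by
      rw [hz, mul_one_div, div_lt_one (by positivity)]; linarith
    have h4 : (0 : ℤ) < z := by exact_mod_cast h2
    have h5 : z < 1 := by exact_mod_cast h3
    omega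

/-- the cutoff profile -/
lemma exists_h (β : ℝ) (hβ : 0 < β) : ∃ (W0 : ℝ) (h : ℝ → ℝ), 0 < W0 ∧
    (∀ W, 0 ≤ h W ∧ h W ≤ 1) ∧ (∀ W, 1 ≤ W → h W = 0) ∧ (∀ W, 0 < W → W ≤ W0 → h W = 1) ∧
    (∀ W W', 0 < W → 0 < W' → W ≤ 4 * W' → W' ≤ 4 * W → |h W - h W'| ≤ β) := by
  refine ⟨Real.exp (-(3 / β)), fun W => max 0 (min 1 (-(β / 3 * Real.log W))), Real.exp_pos _,
    fun W => ⟨le_max_left _ _, max_le zero_le_one (min_le_left _ _)⟩, fun W hW => ?_,
    fun W hW hW0 => ?_, fun W W' hW hW' h1 h2 => ?_⟩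
  · have := Real.log_nonneg hW
    refine max_eq_left ((min_le_right _ _).trans ?_)
    have : 0 ≤ β / 3 * Real.log W := by positivity
    linarith
  · have h1 : Real.log W ≤ -(3 / β) := by
      rw [Real.log_le_iff_le_exp hW]; exact hW0
    have h2 : β / 3 * Real.log W ≤ β / 3 * (-(3 / β)) := by gcongr
    have h3 : β / 3 * (-(3 / β)) = -1 := by field_simp
    simp only
    rw [min_eq_left (by linarith), max_eq_right zero_le_one]
  · have l4 : Real.log 4 ≤ 3 := by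
      have := Real.log_le_sub_one_of_pos (show (0 : ℝ) < 4 by norm_num); linarith
    have a1 : Real.log W ≤ Real.log W' + 3 := by
      have := Real.log_le_log hW h1
      rw [Real.log_mul (by norm_num) hW'.ne'] at this; linarith
    have a2 : Real.log W' ≤ Real.log W + 3 := by
      have := Real.log_le_log hW' h2
      rw [Real.log_mul (by norm_num) hW.ne'] at this; linarith
    refine (abs_max_sub_max_le_max _ _ _ _).trans ?_
    rw [sub_self, abs_zero, max_le_iff]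
    refine ⟨hβ.le, (abs_min_sub_min_le_max _ _ _ _).trans ?_⟩
    rw [sub_self, abs_zero, max_le_iff]
    refine ⟨hβ.le, ?_⟩
    rw [abs_le]
    constructor <;> nlinarith

open Classical in
/-- one half of the ping-pong inequality -/
lemma pingpong {Ω : Type} [Fintype Ω] (f : Ω → ℝ) (hf : ∀ ω, 0 ≤ f ω) (U : Equiv.Perm Ω)
    (A B : Ω → Prop) (h1 : ∀ ω, f ω ≠ 0 → B ω → A (U ω) ∧ A (U.symm ω))
    (h2 : ∀ ω ω', f ω ≠ 0 → B ω → f ω' ≠ 0 → B ω' → U ω ≠ U.symm ω') :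
    2 * ∑ ω ∈ Finset.univ.filter B, f ω ≤
      ∑ ω ∈ Finset.univ.filter A, f ω + 2 * ∑ ω, |f (U ω) - f ω| := by
  let D : Finset Ω := Finset.univ.filter fun ω => f ω ≠ 0 ∧ B ω
  have e0 : ∑ ω ∈ Finset.univ.filter B, f ω = ∑ ω ∈ D, f ω := by
    symm
    refine Finset.sum_subset (fun ω hω => ?_) (fun ω hω hω' => ?_)
    · simp only [D, Finset.mem_filter] at hω ⊢; exact ⟨hω.1, hω.2.2⟩
    · simp only [D, Finset.mem_filter, Finset.mem_univ, true_and] at hω hω'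
      by_contra h; exact hω' ⟨h, hω⟩
  have key : ∀ V : Equiv.Perm Ω, ∑ ω ∈ D, f ω ≤ ∑ ω ∈ D.map V.toEmbedding, f ω +
      ∑ ω, |f (V ω) - f ω| := by
    intro V
    rw [Finset.sum_map]
    have : ∑ ω ∈ D, |f (V ω) - f ω| ≤ ∑ ω, |f (V ω) - f ω| :=
      Finset.sum_le_sum_of_subset_of_nonneg (Finset.subset_univ _) fun _ _ _ => abs_nonneg _
    refine le_trans ?_ (add_le_add le_rfl this)
    rw [← Finset.sum_add_distrib]
    refine Finset.sum_le_sum fun ω _ => ?_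
    have := neg_abs_le (f (V ω) - f ω)
    simp only [Equiv.coe_toEmbedding]
    linarith
  have k1 := key U
  have k2 := key U.symm
  have e1 : ∑ ω, |f (U.symm ω) - f ω| = ∑ ω, |f (U ω) - f ω| := by
    rw [← Equiv.sum_comp U]
    simp only [Equiv.symm_apply_apply]
    exact Finset.sum_congr rfl fun _ _ => abs_sub_comm _ _
  have hdis : Disjoint (D.map U.toEmbedding) (D.map U.symm.toEmbedding) := by
    rw [Finset.disjoint_left]
    intro x hx hx'
    obtain ⟨ω, hω, rfl⟩ := Finset.mem_map.1 hx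
    obtain ⟨ω', hω', e⟩ := Finset.mem_map.1 hx'
    simp only [D, Finset.mem_filter, Finset.mem_univ, true_and] at hω hω'
    exact h2 ω ω' hω.1 hω.2 hω'.1 hω'.2 e.symm
  have k3 : ∑ ω ∈ D.map U.toEmbedding, f ω + ∑ ω ∈ D.map U.symm.toEmbedding, f ω ≤
      ∑ ω ∈ Finset.univ.filter A, f ω := by
    rw [← Finset.sum_union hdis]
    refine Finset.sum_le_sum_of_subset_of_nonneg (fun x hx => ?_) fun _ _ _ => hf _
    simp only [Finset.mem_filter, Finset.mem_univ, true_and]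
    rcases Finset.mem_union.1 hx with hx | hx
    · obtain ⟨ω, hω, rfl⟩ := Finset.mem_map.1 hx
      simp only [D, Finset.mem_filter, Finset.mem_univ, true_and] at hω
      exact (h1 ω hω.1 hω.2).1
    · obtain ⟨ω, hω, rfl⟩ := Finset.mem_map.1 hx
      simp only [D, Finset.mem_filter, Finset.mem_univ, true_and] at hω
      exact (h1 ω hω.1 hω.2).2
  rw [e0]
  linarith

end Crest.Agent.R115
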